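import Vale.Agent.P235.H12.BDefs

/-!
# Rooted excluded minors are closed under joining the roots to a new root (helper332)

`join_of : AllStarStmt → JoinStmt`.  Take a star with `k + 1` bad pieces around the connected set
`Z`.  A walk from the root `v` to `Z` shows that `Z` extends to a connected set `Z'` with `v ∈ Z'`
which meets at most one of the pieces; the other `k` pieces carry the rooted models.
-/

set_option autoImplicit false

namespace Vale.Agent.P235.H332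

open SimpleGraph hiding Free
open Vale.Agent.P235 Vale.Agent.P235.H134 Vale.Agent.P235.H12

theorem dle_mono {V : Type} {G : SimpleGraph V} {C C' : ℝ} (h : DistortionLE G C) (hC : C ≤ C') :
    DistortionLE G C' := by
  intro ℓ hℓ
  obtain ⟨Ω, m, μ, f, hf⟩ := h ℓ hℓ
  refine ⟨Ω, m, μ, f, fun x y => ⟨(hf x y).1, (hf x y).2.trans
    (mul_le_mul_of_nonneg_right hC ?_)⟩⟩
  refine Real.iInf_nonneg fun w => List.sum_nonneg fun z hz => ?_
  obtain ⟨e, he, rfl⟩ := List.mem_map.1 hz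
  exact (hℓ e (w.edges_subset_edgeSet he)).le

theorem conn_image {V : Type} {G : SimpleGraph V} {S : Set V} {T : Set S}
    (h : ((G.induce S).induce T).Connected) : (G.induce (Subtype.val '' T)).Connected := by
  obtain ⟨⟨x0, hx0⟩⟩ := h.nonempty
  have : Nonempty (Subtype.val '' T : Set V) := ⟨⟨x0.1, x0, hx0, rfl⟩⟩
  let φ : (G.induce S).induce T →g G.induce (Subtype.val '' T) :=
    { toFun := fun z => ⟨z.1.1, z.1, z.2, rfl⟩
      map_rel' := fun {a b} hab => hab }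
  refine ⟨?_⟩
  rintro ⟨_, x, hx, rfl⟩ ⟨_, y, hy, rfl⟩
  exact (h.preconnected ⟨x, hx⟩ ⟨y, hy⟩).map φ

/-- the centre of a star grows to a connected set through `v` that meets at most one piece -/
theorem reach_centre {V : Type} {G : SimpleGraph V} {C : ℝ} {k : ℕ} {Z : Set V}
    {D : Fin (k + 1) → Set V} (hs : Star G C (k + 1) Z D) {v z : V} (p : G.Walk v z) (hz : z ∈ Z) :
    ∃ (j : Fin (k + 1)) (Z' : Set V), Z ⊆ Z' ∧ v ∈ Z' ∧ (G.induce Z').Connected ∧
      ∀ i, i ≠ j → Disjoint Z' (D i) := by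
  induction p with
  | nil => exact ⟨0, Z, subset_rfl, hz, hs.conn, fun i _ => hs.off i⟩
  | @cons v w _ hvw p ih =>
    obtain ⟨j, Z', h1, h2, h3, h4⟩ := ih hz
    by_cases hv : ∃ i, v ∈ D i
    · obtain ⟨i, hi⟩ := hv
      obtain ⟨y, hy, x, hx, hyx⟩ := hs.adj i
      refine ⟨i, Z ∪ D i, Set.subset_union_left, Or.inr hi,
        connected_induce_union hs.conn.preconnected (hs.bad i).1.preconnected hy hx hyx,
        fun l hl => ?_⟩
      exact Disjoint.union_left (hs.off l) (hs.disj i l (Ne.symm hl))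
    · push_neg at hv
      refine ⟨j, Z' ∪ {v}, h1.trans Set.subset_union_left, Or.inr rfl,
        connected_induce_union (v := w) (w := v) h3.preconnected ?_ h2 rfl hvw.symm,
        fun l hl => ?_⟩
      · rintro ⟨x, rfl⟩ ⟨y, hy⟩
        obtain rfl : y = x := hy
        exact Reachable.refl _
      · exact Disjoint.union_left (h4 l hl) (Set.disjoint_singleton_left.2 (hv l))

/-- (JOIN) from Theorem S -/
theorem join_of (hS : AllStarStmt) : JoinStmt := by
  intro k W H a hR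
  choose Q hQ using hR
  obtain ⟨K, hK⟩ := hS k (∑ i, |Q i|)
  have hQC : ∀ i, Q i ≤ ∑ i, |Q i| := fun i => (le_abs_self _).trans
    (Finset.single_le_sum (f := fun i => |Q i|) (fun _ _ => abs_nonneg _) (Finset.mem_univ i))
  refine ⟨K, fun V _ G hG hb v => ?_⟩
  obtain ⟨Z, D, hs⟩ := hK V G hG hb
  obtain ⟨⟨z, hz⟩⟩ := hs.conn.nonempty
  obtain ⟨p⟩ := hG.preconnected v z
  obtain ⟨j, Z', h1, h2, h3, h4⟩ := reach_centre hs p hz
  have hm : ∀ i : Fin k, ∃ μ : W i → Set V, (∀ w, (G.induce (μ w)).Connected) ∧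
      (∀ w w', w ≠ w' → Disjoint (μ w) (μ w')) ∧
      (∀ w w', (H i).Adj w w' → ∃ x ∈ μ w, ∃ y ∈ μ w', G.Adj x y) ∧
      (∀ w, μ w ⊆ D (j.succAbove i)) ∧ ∃ z ∈ Z, ∃ x ∈ μ (a i), G.Adj z x := by
    intro i
    obtain ⟨y, hy, x, hx, hyx⟩ := hs.adj (j.succAbove i)
    obtain ⟨ν, n1, n2, n3, n4⟩ := hQ i (D (j.succAbove i)) (G.induce (D (j.succAbove i)))
      (hs.bad _).1 (fun h => (hs.bad (j.succAbove i)).2 (dle_mono h (hQC i))) ⟨x, hx⟩
    refine ⟨fun w => Subtype.val '' ν w, fun w => conn_image (n1 w), fun w w' hw => ?_,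
      fun w w' hw => ?_, fun w => ?_, y, hy, x, ⟨⟨x, hx⟩, n4, rfl⟩, hyx⟩
    · exact (Set.disjoint_image_iff Subtype.val_injective).2 (n2 w w' hw)
    · obtain ⟨s, hs', t, ht, hst⟩ := n3 w w' hw
      exact ⟨s, ⟨s, hs', rfl⟩, t, ⟨t, ht, rfl⟩, hst⟩
    · rintro _ ⟨s, _, rfl⟩
      exact s.2
  choose μ m1 m2 m3 m4 m5 using hm
  have hj : ∀ i : Fin k, j.succAbove i ≠ j := fun i => Fin.succAbove_ne j i
  refine ⟨fun o => o.elim Z' fun x => μ x.1 x.2, ?_, ?_, ?_, h2⟩
  · rintro (_ | ⟨i, w⟩)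
    · exact h3
    · exact m1 i w
  · rintro (_ | ⟨i, w⟩) (_ | ⟨i', w'⟩) hne
    · exact absurd rfl hne
    · exact (h4 _ (hj i')).mono_right (m4 i' w')
    · exact ((h4 _ (hj i)).mono_right (m4 i w)).symm
    · show Disjoint (μ i w) (μ i' w')
      by_cases hi : i = i'
      · subst hi
        exact m2 i w w' fun h => hne (by rw [h])
      · exact (hs.disj _ _ fun h => hi (Fin.succAbove_right_injective h)).mono (m4 i w) (m4 i' w')
  · rintro x y (⟨i, w, w', rfl, rfl, h⟩ | ⟨rfl, i, rfl⟩ | ⟨rfl, i, rfl⟩)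
    · exact m3 i w w' h
    · obtain ⟨z, hz, x, hx, hzx⟩ := m5 i
      exact ⟨z, h1 hz, x, hx, hzx⟩
    · obtain ⟨z, hz, x, hx, hzx⟩ := m5 i
      exact ⟨x, hx, z, h1 hz, hzx.symm⟩

end Vale.Agent.P235.H332
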