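import Vale.Agent.P235.H56.Defs2

/-! `ArcStmt`: two sets of positions on a cycle (helper332). -/

namespace Vale.Agent.P235.H332

open Vale.Agent.P235.H56

section

variable {V : Type} (y : ℕ → V) (L : ℕ)

theorem per_mul (hp : ∀ i, y (i + L) = y i) (i k : ℕ) : y (i + k * L) = y i := by
  induction k with
  | zero => simp
  | succ k ih =>
    have : i + (k + 1) * L = (i + k * L) + L := by ring
    rw [this, hp, ih]

/-- every value is taken in every window of length `L`. -/
theorem window (hL : 0 < L) (hp : ∀ i, y (i + L) = y i) (t : ℕ) {a : V} (h : ∃ i, y i = a) :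
    ∃ i, t ≤ i ∧ i < t + L ∧ y i = a := by
  obtain ⟨i, hi⟩ := h
  have h1 : t ≤ i + t * L := by nlinarith
  refine ⟨t + (i + t * L - t) % L, by omega, ?_, ?_⟩
  · have := Nat.mod_lt (i + t * L - t) hL
    omega
  · have h2 : t + (i + t * L - t) % L + ((i + t * L - t) / L) * L = i + t * L := by
      have := Nat.mod_add_div' (i + t * L - t) L
      omega
    rw [← per_mul y L hp _ ((i + t * L - t) / L), h2, per_mul y L hp, hi]

theorem window' (hL : 0 < L) (hp : ∀ i, y (i + L) = y i) (t : ℕ) {a : V} (h : ∃ i, y i = a)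
    (ht : y t ≠ a) : ∃ i, t < i ∧ i < t + L ∧ y i = a := by
  obtain ⟨i, h1, h2, h3⟩ := window y L hL hp t h
  refine ⟨i, lt_of_le_of_ne h1 ?_, h2, h3⟩
  rintro rfl
  exact ht h3

theorem minmax (A : Set V) (t : ℕ) (h : ∀ a ∈ A, ∃ i, t < i ∧ i < t + L ∧ y i = a)
    (h2 : 2 ≤ A.ncard) :
    ∃ i₁ i₂, t < i₁ ∧ i₁ < i₂ ∧ i₂ < t + L ∧ y i₁ ∈ A ∧ y i₂ ∈ A ∧
      ∀ i, t < i → i < t + L → y i ∈ A → i₁ ≤ i ∧ i ≤ i₂ := by
  classical
  set P : Finset ℕ := (Finset.Ioo t (t + L)).filter (fun i => y i ∈ A) with hP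
  have hmem : ∀ i, i ∈ P ↔ (t < i ∧ i < t + L) ∧ y i ∈ A := by
    intro i
    simp [hP]
  have hne : A.Nonempty := by
    rw [Set.nonempty_iff_ne_empty]
    rintro rfl
    simp at h2
  have hPne : P.Nonempty := by
    obtain ⟨a, ha⟩ := hne
    obtain ⟨i, h3, h4, rfl⟩ := h a ha
    exact ⟨i, (hmem i).2 ⟨⟨h3, h4⟩, ha⟩⟩
  have hmin := (hmem _).1 (P.min'_mem hPne)
  have hmax := (hmem _).1 (P.max'_mem hPne)
  have hbd : ∀ i, t < i → i < t + L → y i ∈ A → P.min' hPne ≤ i ∧ i ≤ P.max' hPne :=
    fun i hi1 hi2 hi3 => ⟨P.min'_le i ((hmem i).2 ⟨⟨hi1, hi2⟩, hi3⟩),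
      P.le_max' i ((hmem i).2 ⟨⟨hi1, hi2⟩, hi3⟩)⟩
  refine ⟨P.min' hPne, P.max' hPne, hmin.1.1, ?_, hmax.1.2, hmin.2, hmax.2, hbd⟩
  by_contra hcon
  have hsub : A ⊆ {y (P.min' hPne)} := by
    intro a ha
    obtain ⟨i, h3, h4, rfl⟩ := h a ha
    have := hbd i h3 h4 ha
    have h5 : i = P.min' hPne := by omega
    rw [Set.mem_singleton_iff, h5]
  have := Set.ncard_le_ncard hsub (Set.finite_singleton _)
  rw [Set.ncard_singleton] at this
  omega

end

theorem arcStmt : ArcStmt := by
  intro V _ y L A B hL hp hinj hA hB hA2 hB2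
  have hAne : A.Nonempty := by
    rw [Set.nonempty_iff_ne_empty]
    rintro rfl
    simp at hA2
  by_cases hBA : ∃ b ∈ B, b ∉ A
  · -- case 1
    obtain ⟨b, hb, hbA⟩ := hBA
    obtain ⟨t, rfl⟩ := hB b hb
    obtain ⟨i₁, i₂, h1, h12, h2, hi1, hi2, hbd⟩ := minmax y L A t
      (fun a ha => window' y L hL hp t (hA a ha) (fun h => hbA (h ▸ ha))) hA2
    by_cases hj : ∃ j, i₁ < j ∧ j < i₂ ∧ y j ∈ B
    · obtain ⟨j, hj1, hj2, hj3⟩ := hj
      refine Or.inl ⟨i₁, j, i₂, t + L, hj1, hj2, h2, by omega, hi1, hj3, hi2, ?_⟩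
      rw [hp]
      exact hb
    · push Not at hj
      refine Or.inr (Or.inr ⟨i₁, i₂ - i₁, by omega, by omega, hi1, ?_, ?_, ?_⟩)
      · rwa [show i₁ + (i₂ - i₁) = i₂ by omega]
      · intro a ha
        obtain ⟨i, h3, h4, rfl⟩ := window' y L hL hp t (hA a ha) (fun h => hbA (h ▸ ha))
        have := hbd i h3 h4 ha
        exact ⟨i - i₁, by omega, by rw [show i₁ + (i - i₁) = i by omega]⟩
      · intro c hc
        obtain ⟨j, h3, h4, rfl⟩ := window y L hL hp t (hB c hc)
        by_cases h5 : i₂ ≤ j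
        · exact ⟨j - i₁, by omega, by omega, by rw [show i₁ + (j - i₁) = j by omega]⟩
        · have h6 : j ≤ i₁ := by
            by_contra h7
            exact hj j (by omega) (by omega) hc
          refine ⟨j + L - i₁, by omega, by omega, ?_⟩
          rw [show i₁ + (j + L - i₁) = j + L by omega, hp]
  · push Not at hBA
    by_cases hAB : ∃ a ∈ A, a ∉ B
    · -- case 2
      obtain ⟨a, ha, haB⟩ := hAB
      obtain ⟨t, rfl⟩ := hA a ha
      obtain ⟨j₁, j₂, h1, h12, h2, hj1, hj2, hbd⟩ := minmax y L B t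
        (fun b hb => window' y L hL hp t (hB b hb) (fun h => haB (h ▸ hb))) hB2
      by_cases hj : ∃ i, j₁ < i ∧ i < j₂ ∧ y i ∈ A
      · obtain ⟨i, hi1, hi2, hi3⟩ := hj
        exact Or.inl ⟨t, j₁, i, j₂, h1, hi1, hi2, h2, ha, hj1, hi3, hj2⟩
      · push Not at hj
        refine Or.inr (Or.inr ⟨j₂, j₁ + L - j₂, by omega, by omega, hBA _ hj2, ?_, ?_, ?_⟩)
        · rw [show j₂ + (j₁ + L - j₂) = j₁ + L by omega, hp]
          exact hBA _ hj1
        · intro c hc
          obtain ⟨i, h3, h4, rfl⟩ := window y L hL hp t (hA c hc)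
          by_cases h5 : j₂ ≤ i
          · exact ⟨i - j₂, by omega, by rw [show j₂ + (i - j₂) = i by omega]⟩
          · have h6 : i ≤ j₁ := by
              by_contra h7
              exact hj i (by omega) (by omega) hc
            refine ⟨i + L - j₂, by omega, ?_⟩
            rw [show j₂ + (i + L - j₂) = i + L by omega, hp]
        · intro c hc
          obtain ⟨i, h3, h4, rfl⟩ := window' y L hL hp t (hB c hc) (fun h => haB (h ▸ hc))
          have h5 := hbd i h3 h4 hc
          by_cases h6 : i = j₂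
          · refine ⟨L, by omega, le_rfl, ?_⟩
            rw [hp, h6]
          · have h7 : i = j₁ := by
              by_contra h8
              exact hj i (by omega) (by omega) (hBA _ hc)
            refine ⟨j₁ + L - j₂, le_rfl, by omega, ?_⟩
            rw [show j₂ + (j₁ + L - j₂) = j₁ + L by omega, hp, h7]
    · -- case 3
      push Not at hAB
      have hEq : A = B := Set.Subset.antisymm hAB hBA
      subst hEq
      by_cases h3 : A.ncard = 3
      · exact Or.inr (Or.inl ⟨rfl, h3⟩)
      obtain ⟨a, ha⟩ := hAne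
      obtain ⟨t, rfl⟩ := hA a ha
      by_cases h2 : A.ncard = 2
      · obtain ⟨u, v, huv, hAe⟩ := Set.ncard_eq_two.1 h2
        have key : ∃ c, c ≠ y t ∧ A = {y t, c} := by
          rw [hAe] at ha
          rcases ha with ha | ha
          · exact ⟨v, by rw [ha]; exact huv.symm, by rw [hAe, ha]⟩
          · rw [Set.mem_singleton_iff] at ha
            exact ⟨u, by rw [ha]; exact huv, by rw [hAe, ha, Set.pair_comm]⟩
        obtain ⟨c, hc, hAc⟩ := key
        have hcA : c ∈ A := by rw [hAc]; simp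
        obtain ⟨j, hj1, hj2, rfl⟩ := window' y L hL hp t (hA c hcA) (Ne.symm hc)
        refine Or.inr (Or.inr ⟨t, j - t, by omega, by omega, ha, ?_, ?_, ?_⟩)
        · rwa [show t + (j - t) = j by omega]
        · intro x hx
          rw [hAc] at hx
          rcases hx with hx | hx
          · exact ⟨0, by omega, by rw [hx]; rfl⟩
          · rw [Set.mem_singleton_iff] at hx
            exact ⟨j - t, le_rfl, by rw [hx, show t + (j - t) = j by omega]⟩
        · intro x hx
          rw [hAc] at hx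
          rcases hx with hx | hx
          · exact ⟨L, by omega, le_rfl, by rw [hp, hx]⟩
          · rw [Set.mem_singleton_iff] at hx
            exact ⟨j - t, le_rfl, by omega, by rw [hx, show t + (j - t) = j by omega]⟩
      · -- at least four elements
        have hA4 : 4 ≤ A.ncard := by omega
        have hfin : A.Finite := Set.toFinite A
        have hc : 3 ≤ (A \ {y t}).ncard := by
          have := Set.ncard_sdiff_singleton_add_one ha hfin
          omega
        obtain ⟨p₁, p₃, h1, h13, h3', hp1, hp3, hbd⟩ := minmax y L (A \ {y t}) t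
          (fun x hx => window' y L hL hp t (hA x hx.1) (fun h => hx.2 h.symm)) (by omega)
        have hmid : ∃ p, p₁ < p ∧ p < p₃ ∧ y p ∈ A := by
          by_contra hcon
          push Not at hcon
          have hsub : A \ {y t} ⊆ {y p₁, y p₃} := by
            intro x hx
            obtain ⟨i, h5, h6, rfl⟩ := window' y L hL hp t (hA x hx.1) (fun h => hx.2 h.symm)
            have h7 := hbd i h5 h6 hx
            by_cases h8 : i = p₁
            · left; rw [h8]
            · right
              have h9 : i = p₃ := by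
                by_contra h10
                exact hcon i (by omega) (by omega) hx.1
              rw [Set.mem_singleton_iff, h9]
          have := Set.ncard_le_ncard hsub (Set.toFinite _)
          have h4 : ({y p₁, y p₃} : Set V).ncard ≤ 2 := Set.ncard_insert_le _ _ |>.trans (by
            rw [Set.ncard_singleton])
          omega
        obtain ⟨p₂, h21, h22, h23⟩ := hmid
        exact Or.inl ⟨t, p₁, p₂, p₃, h1, h21, h22, h3', ha, hp1.1, h23, hp3.1⟩

end Vale.Agent.P235.H332
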